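import Mathlib

/-! Borsuk partitions for finite sets whose diameter graph is `d`-degenerate: if every nonempty
subset `T` of the finite set `S` has a point with at most `d` points of `T` at distance `diam S`,
then `S` splits into `d + 1` parts of smaller diameter. -/

namespace Vale.Agent.Results.P052.DegenerateDiameterGraph

open Finset

theorem colouring {E : Type*} [MetricSpace E] (d : ℕ) (S : Finset E) (D : ℝ) (hD : 0 < D)
    (hdeg : ∀ T ⊆ S, T.Nonempty → ∃ x ∈ T, (T.filter (fun y => dist x y = D)).card ≤ d) :
    ∀ T ⊆ S, ∃ c : E → Fin (d + 1), ∀ x ∈ T, ∀ y ∈ T, dist x y = D → c x ≠ c y := by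
  classical
  intro T
  induction T using Finset.strongInduction with
  | H T ih =>
    intro hT
    rcases T.eq_empty_or_nonempty with rfl | hne
    · exact ⟨fun _ => 0, by simp⟩
    · obtain ⟨x, hx, hcard⟩ := hdeg T hT hne
      obtain ⟨c, hc⟩ := ih (T.erase x) (Finset.erase_ssubset hx)
        ((Finset.erase_subset x T).trans hT)
      have hlt : ((T.filter (fun y => dist x y = D)).image c).card
          < (Finset.univ : Finset (Fin (d + 1))).card := by
        calc ((T.filter (fun y => dist x y = D)).image c).card
            ≤ (T.filter (fun y => dist x y = D)).card := Finset.card_image_le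
          _ ≤ d := hcard
          _ < (Finset.univ : Finset (Fin (d + 1))).card := by simp
      obtain ⟨k, -, hk⟩ := Finset.exists_mem_notMem_of_card_lt_card hlt
      have hk' : ∀ y ∈ T, dist x y = D → c y ≠ k := by
        intro y hy hd hck
        exact hk (Finset.mem_image.2 ⟨y, Finset.mem_filter.2 ⟨hy, hd⟩, hck⟩)
      refine ⟨Function.update c x k, ?_⟩
      intro y hy z hz hd
      by_cases hyx : y = x
      · subst hyx
        by_cases hzx : z = y
        · subst hzx
          simp at hd
          exact absurd hd hD.ne
        · rw [Function.update_self, Function.update_of_ne hzx]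
          exact (hk' z hz hd).symm
      · by_cases hzx : z = x
        · subst hzx
          rw [Function.update_self, Function.update_of_ne hyx]
          exact hk' y hy (by rw [dist_comm]; exact hd)
        · rw [Function.update_of_ne hyx, Function.update_of_ne hzx]
          exact hc y (Finset.mem_erase.2 ⟨hyx, hy⟩) z (Finset.mem_erase.2 ⟨hzx, hz⟩) hd

theorem result {E : Type*} [MetricSpace E] (d : ℕ) (S : Finset E) (hS : S.Nontrivial)
    (hdeg : ∀ T ⊆ S, T.Nonempty →
      ∃ x ∈ T, (T.filter (fun y => dist x y = Metric.diam (S : Set E))).card ≤ d) :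
    ∃ c : E → Fin (d + 1), ∀ i : Fin (d + 1),
      Metric.diam {x : E | x ∈ S ∧ c x = i} < Metric.diam (S : Set E) := by
  classical
  have hb : Bornology.IsBounded (S : Set E) := S.finite_toSet.isBounded
  have hD : 0 < Metric.diam (S : Set E) := by
    obtain ⟨x, hx, y, hy, hxy⟩ := hS
    exact lt_of_lt_of_le (dist_pos.2 hxy) (Metric.dist_le_diam_of_mem hb hx hy)
  obtain ⟨c, hc⟩ := colouring d S _ hD hdeg S (Finset.Subset.refl S)
  refine ⟨c, fun i => ?_⟩
  set P : Finset E := S.filter (fun x => c x = i) with hP
  have hset : {x : E | x ∈ S ∧ c x = i} = (P : Set E) := by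
    ext x
    simp [hP]
  rw [hset]
  rcases P.eq_empty_or_nonempty with h0 | hne
  · rw [h0]
    simpa using hD
  · obtain ⟨p, hp, hmax⟩ := Finset.exists_max_image (P ×ˢ P) (fun p => dist p.1 p.2)
      (hne.product hne)
    have hp1 := (Finset.mem_product.1 hp).1
    have hp2 := (Finset.mem_product.1 hp).2
    have hle : Metric.diam (P : Set E) ≤ dist p.1 p.2 := by
      apply Metric.diam_le_of_forall_dist_le dist_nonneg
      intro x hx y hy
      exact hmax (x, y) (Finset.mem_product.2 ⟨hx, hy⟩)
    have hS1 := (Finset.mem_filter.1 hp1)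
    have hS2 := (Finset.mem_filter.1 hp2)
    have hle2 : dist p.1 p.2 ≤ Metric.diam (S : Set E) :=
      Metric.dist_le_diam_of_mem hb hS1.1 hS2.1
    have hne2 : dist p.1 p.2 ≠ Metric.diam (S : Set E) := by
      intro heq
      exact hc p.1 hS1.1 p.2 hS2.1 heq (hS1.2.trans hS2.2.symm)
    exact lt_of_le_of_lt hle (lt_of_le_of_ne hle2 hne2)

end Vale.Agent.Results.P052.DegenerateDiameterGraph
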