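import Mathlib

/-!
# P052: Borsuk's partition bound for finite sets with a sparse diameter graph

Let `Y` be a finite subset of Euclidean `d`-space of positive diameter `D`.  If every nonempty
subset `Z` of `Y` has a point with at most `d` partners at distance `D` inside `Z` (the diameter
graph is `d`-degenerate), then `Y` splits into `d + 1` parts of diameter smaller than `D`.
In particular this holds if every point of `Y` has at most `d` partners at distance `D`.
-/

namespace Vale.Agent.Results.P052.SparseDiameterGraph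

open Finset

theorem color_aux {E : Type*} [MetricSpace E] [DecidableEq E] (d : ℕ) (D : ℝ) (hD : 0 < D) :
    ∀ (n : ℕ) (Y : Finset E), Y.card = n →
      (∀ Z ⊆ Y, Z.Nonempty → ∃ z ∈ Z, (Z.filter (fun y => dist z y = D)).card ≤ d) →
      ∃ c : E → Fin (d + 1), ∀ x ∈ Y, ∀ y ∈ Y, c x = c y → dist x y ≠ D := by
  intro n
  induction n with
  | zero =>
    intro Y hY _
    refine ⟨fun _ => 0, ?_⟩
    intro x hx
    rw [Finset.card_eq_zero.1 hY] at hx
    exact absurd hx (Finset.notMem_empty x)
  | succ n ih =>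
    intro Y hY hdeg
    have hne : Y.Nonempty := by
      rw [← Finset.card_pos]; omega
    obtain ⟨z, hz, hzc⟩ := hdeg Y (Subset.refl _) hne
    obtain ⟨c, hc⟩ := ih (Y.erase z) (by rw [card_erase_of_mem hz]; omega)
      (fun Z hZ hZne => hdeg Z (hZ.trans (erase_subset _ _)) hZne)
    have hex : ∃ i : Fin (d + 1), i ∉ (Y.filter (fun y => dist z y = D)).image c := by
      by_contra hcon
      push Not at hcon
      have hsub : (univ : Finset (Fin (d + 1))) ⊆ (Y.filter (fun y => dist z y = D)).image c :=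
        fun i _ => hcon i
      have h1 := card_le_card hsub
      have h2 := card_image_le (s := Y.filter (fun y => dist z y = D)) (f := c)
      rw [card_univ, Fintype.card_fin] at h1
      omega
    obtain ⟨i, hi⟩ := hex
    refine ⟨Function.update c z i, ?_⟩
    intro x hx y hy hxy hdist
    by_cases hxz : x = z
    · by_cases hyz : y = z
      · rw [hxz, hyz, dist_self] at hdist
        exact hD.ne hdist
      · rw [hxz, Function.update_self, Function.update_of_ne hyz] at hxy
        apply hi
        rw [hxy]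
        exact mem_image_of_mem c (mem_filter.2 ⟨hy, by rw [← hxz]; exact hdist⟩)
    · by_cases hyz : y = z
      · rw [hyz, Function.update_self, Function.update_of_ne hxz] at hxy
        apply hi
        rw [← hxy]
        exact mem_image_of_mem c (mem_filter.2 ⟨hx, by rw [← hyz, dist_comm]; exact hdist⟩)
      · rw [Function.update_of_ne hxz, Function.update_of_ne hyz] at hxy
        exact hc x (mem_erase.2 ⟨hxz, hx⟩) y (mem_erase.2 ⟨hyz, hy⟩) hxy hdist

theorem diam_lt {E : Type*} [MetricSpace E] (T : Finset E) (D : ℝ) (hD : 0 < D)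
    (h : ∀ x ∈ T, ∀ y ∈ T, dist x y < D) : Metric.diam (T : Set E) < D := by
  rcases T.eq_empty_or_nonempty with rfl | hne
  · simpa using hD
  · obtain ⟨p, hp, hmax⟩ := (T ×ˢ T).exists_max_image (fun p => dist p.1 p.2) (hne.product hne)
    have h1 : Metric.diam (T : Set E) ≤ dist p.1 p.2 :=
      Metric.diam_le_of_forall_dist_le dist_nonneg
        (fun x hx y hy => hmax (x, y) (mem_product.2 ⟨hx, hy⟩))
    have hp' := mem_product.1 hp
    exact h1.trans_lt (h _ hp'.1 _ hp'.2)

theorem degenerate (d : ℕ) (Y : Finset (EuclideanSpace ℝ (Fin d)))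
    (hpos : 0 < Metric.diam (Y : Set (EuclideanSpace ℝ (Fin d))))
    (hdeg : ∀ Z ⊆ Y, Z.Nonempty → ∃ z ∈ Z,
      (Z.filter (fun y => dist z y = Metric.diam (Y : Set (EuclideanSpace ℝ (Fin d))))).card ≤ d) :
    ∃ c : EuclideanSpace ℝ (Fin d) → Fin (d + 1), ∀ i : Fin (d + 1),
      Metric.diam {x | x ∈ Y ∧ c x = i} < Metric.diam (Y : Set (EuclideanSpace ℝ (Fin d))) := by
  classical
  obtain ⟨c, hc⟩ := color_aux d _ hpos Y.card Y rfl hdeg
  refine ⟨c, fun i => ?_⟩
  have e : {x | x ∈ Y ∧ c x = i} = ((Y.filter (fun x => c x = i) : Finset _) : Set _) := by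
    ext x; simp
  rw [e]
  apply diam_lt _ _ hpos
  intro x hx y hy
  have hx' := mem_filter.1 hx
  have hy' := mem_filter.1 hy
  have hle : dist x y ≤ Metric.diam (Y : Set (EuclideanSpace ℝ (Fin d))) :=
    Metric.dist_le_diam_of_mem Y.finite_toSet.isBounded hx'.1 hy'.1
  exact lt_of_le_of_ne hle (hc x hx'.1 y hy'.1 (hx'.2.trans hy'.2.symm))

theorem result :
    (∀ (d : ℕ) (Y : Finset (EuclideanSpace ℝ (Fin d))),
      0 < Metric.diam (Y : Set (EuclideanSpace ℝ (Fin d))) →
      (∀ Z ⊆ Y, Z.Nonempty → ∃ z ∈ Z, (Z.filter (fun y =>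
        dist z y = Metric.diam (Y : Set (EuclideanSpace ℝ (Fin d))))).card ≤ d) →
      ∃ c : EuclideanSpace ℝ (Fin d) → Fin (d + 1), ∀ i : Fin (d + 1),
        Metric.diam {x | x ∈ Y ∧ c x = i} < Metric.diam (Y : Set (EuclideanSpace ℝ (Fin d)))) ∧
    (∀ (d : ℕ) (Y : Finset (EuclideanSpace ℝ (Fin d))),
      0 < Metric.diam (Y : Set (EuclideanSpace ℝ (Fin d))) →
      (∀ z ∈ Y, (Y.filter (fun y =>
        dist z y = Metric.diam (Y : Set (EuclideanSpace ℝ (Fin d))))).card ≤ d) →
      ∃ c : EuclideanSpace ℝ (Fin d) → Fin (d + 1), ∀ i : Fin (d + 1),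
        Metric.diam {x | x ∈ Y ∧ c x = i} < Metric.diam (Y : Set (EuclideanSpace ℝ (Fin d)))) := by
  refine ⟨degenerate, fun d Y hpos hmax => degenerate d Y hpos ?_⟩
  intro Z hZ hne
  obtain ⟨z, hz⟩ := hne
  refine ⟨z, hz, le_trans (card_le_card ?_) (hmax z (hZ hz))⟩
  exact filter_subset_filter _ hZ

end Vale.Agent.Results.P052.SparseDiameterGraph
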